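import Mathlib.GroupTheory.Perm.Sign
import Mathlib.Data.Complex.Basic
import Mathlib.Algebra.BigOperators.Fin
import Mathlib.Logic.Equiv.Fin.Basic

set_option autoImplicit false

/-!
# SPLIT, core: a block relation kills a column antisymmetrisation

If every block permutation either fixes the function `x` or brings two positions of the same
colour into positions which `x` does not distinguish, the antisymmetrisation of `x` is zero.
-/

namespace Vale.Agent.P181.SPLIT.H412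

open Equiv

/-- The term of one map `b`: it vanishes if `b` brings two equal colours to exchangeable places. -/
theorem term_zero {α β γ : Type*} [Fintype α] [DecidableEq α] [DecidableEq γ]
    (x : (α → β) → ℂ) (κ : α → γ) (b : α → α) (hb : Function.Injective b) (p p' : α)
    (hp : p ≠ p') (hκ : κ (b p) = κ (b p')) (hx : ∀ w : α → β, x (w ∘ Equiv.swap p p') = x w)
    (w : α → β) :
    ∑ σ : {σ : Equiv.Perm α // κ ∘ σ = κ},
      (Equiv.Perm.sign σ.1 : ℂ) * x ((w ∘ σ.1) ∘ b) = 0 := by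
  classical
  have hne : b p ≠ b p' := fun h => hp (hb h)
  have hθ : κ ∘ (Equiv.swap (b p) (b p')) = κ := by
    funext a
    simp only [Function.comp]
    by_cases h1 : a = b p
    · rw [h1, Equiv.swap_apply_left, hκ]
    · by_cases h2 : a = b p'
      · rw [h2, Equiv.swap_apply_right, hκ]
      · rw [Equiv.swap_apply_of_ne_of_ne h1 h2]
  set θ : {σ : Equiv.Perm α // κ ∘ σ = κ} → {σ : Equiv.Perm α // κ ∘ σ = κ} :=
    fun σ => ⟨σ.1 * Equiv.swap (b p) (b p'), by
      funext a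
      have h1 := congrFun σ.2 (Equiv.swap (b p) (b p') a)
      have h2 := congrFun hθ a
      simp only [Function.comp, Equiv.Perm.coe_mul] at h1 h2 ⊢
      rw [h1, h2]⟩ with hθdef
  have hinv : Function.Involutive θ := by
    intro σ
    apply Subtype.ext
    simp [hθdef, mul_assoc]
  have hsum : ∑ σ : {σ : Equiv.Perm α // κ ∘ σ = κ},
      (Equiv.Perm.sign σ.1 : ℂ) * x ((w ∘ σ.1) ∘ b) =
      ∑ σ : {σ : Equiv.Perm α // κ ∘ σ = κ},
      (Equiv.Perm.sign (θ σ).1 : ℂ) * x ((w ∘ (θ σ).1) ∘ b) :=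
    (Equiv.sum_comp hinv.toPerm (fun σ : {σ : Equiv.Perm α // κ ∘ σ = κ} =>
      (Equiv.Perm.sign σ.1 : ℂ) * x ((w ∘ σ.1) ∘ b))).symm
  have hneg : ∀ σ : {σ : Equiv.Perm α // κ ∘ σ = κ},
      (Equiv.Perm.sign (θ σ).1 : ℂ) * x ((w ∘ (θ σ).1) ∘ b) =
      -((Equiv.Perm.sign σ.1 : ℂ) * x ((w ∘ σ.1) ∘ b)) := by
    intro σ
    have h1 : Equiv.Perm.sign (θ σ).1 = - Equiv.Perm.sign σ.1 := by
      simp [hθdef, Equiv.Perm.sign_mul, Equiv.Perm.sign_swap hne]
    have h2 : (w ∘ (θ σ).1) ∘ b = ((w ∘ σ.1) ∘ b) ∘ Equiv.swap p p' := by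
      funext a
      simp only [hθdef, Function.comp, Equiv.Perm.coe_mul]
      congr 2
      exact congrFun (hb.swap_comp p p') a
    rw [h1, h2, hx]
    push_cast
    ring
  rw [Finset.sum_congr rfl (fun σ _ => hneg σ), Finset.sum_neg_distrib] at hsum
  have := self_eq_neg.mp hsum
  exact this

/-- The core: see the file header. -/
theorem core {α β γ T : Type*} [Fintype α] [DecidableEq α] [DecidableEq γ] [Fintype T]
    (x : (α → β) → ℂ) (b : T → α → α) (hb : ∀ τ, Function.Injective (b τ))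
    (hx : ∀ w : α → β, ∑ τ, x (w ∘ b τ) = 0) (κ : α → γ)
    (h : ∀ τ, (∀ w : α → β, x (w ∘ b τ) = x w) ∨
      ∃ p p', p ≠ p' ∧ κ (b τ p) = κ (b τ p') ∧ ∀ w : α → β, x (w ∘ Equiv.swap p p') = x w)
    (τ0 : T) (h0 : ∀ w : α → β, x (w ∘ b τ0) = x w) (w : α → β) :
    ∑ σ : {σ : Equiv.Perm α // κ ∘ σ = κ},
      (Equiv.Perm.sign σ.1 : ℂ) * x (w ∘ σ.1) = 0 := by
  classical
  set A : ℂ := ∑ σ : {σ : Equiv.Perm α // κ ∘ σ = κ},
      (Equiv.Perm.sign σ.1 : ℂ) * x (w ∘ σ.1) with hA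
  have h1 : ∑ τ : T, ∑ σ : {σ : Equiv.Perm α // κ ∘ σ = κ},
      (Equiv.Perm.sign σ.1 : ℂ) * x ((w ∘ σ.1) ∘ b τ) = 0 := by
    rw [Finset.sum_comm]
    apply Finset.sum_eq_zero
    intro σ _
    rw [← Finset.mul_sum, hx, mul_zero]
  have h2 : ∀ τ : T, ∑ σ : {σ : Equiv.Perm α // κ ∘ σ = κ},
      (Equiv.Perm.sign σ.1 : ℂ) * x ((w ∘ σ.1) ∘ b τ) =
      if (∀ w : α → β, x (w ∘ b τ) = x w) then A else 0 := by
    intro τ
    split_ifs with hg
    · rw [hA]
      apply Finset.sum_congr rfl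
      intro σ _
      rw [hg]
    · rcases h τ with h3 | ⟨p, p', hp, hκ, hs⟩
      · exact absurd h3 hg
      · exact term_zero x κ (b τ) (hb τ) p p' hp hκ hs w
  rw [Finset.sum_congr rfl (fun τ _ => h2 τ), ← Finset.sum_filter, Finset.sum_const,
    nsmul_eq_mul] at h1
  rcases mul_eq_zero.mp h1 with h3 | h3
  · exfalso
    have h4 : 0 < (Finset.univ.filter (fun τ : T => ∀ w : α → β, x (w ∘ b τ) = x w)).card :=
      Finset.card_pos.mpr ⟨τ0, by simpa using h0⟩
    have h5 : ((Finset.univ.filter (fun τ : T => ∀ w : α → β, x (w ∘ b τ) = x w)).card : ℂ) ≠ 0 :=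
      Nat.cast_ne_zero.mpr h4.ne'
    exact h5 h3
  · exact h3

end Vale.Agent.P181.SPLIT.H412
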