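import Vale.Agent.P181.FLAT.H858.Asm
import Vale.Agent.P181.SPLIT.H412.Core

set_option autoImplicit false

/-!
# SPLIT, bridge: from a good cutting of the slots to `FormsVanishG`
-/

open scoped TensorProduct

namespace Vale.Agent.P181.SPLIT.H412

open Vale.Agent.P181 Vale.Agent.P181.H280 Vale.Agent.P181.H867 MvPolynomial
open Vale.Agent.P181.FLAT.H858

/-- Every family of injective slots `P i` with `M` colours can be cut into crossing blocks. -/
def SplitProp (d q c M : ℕ) [NeZero q] : Prop :=
  ∀ P : Fin d → Fin q × Fin c → Fin M, (∀ i, Function.Injective (P i)) →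
    ∃ ε : Fin d → Fin c → Fin q, ∀ i k, i ≠ k → ∀ t u : Fin q,
      ∃ s s' : Fin c, P i (t + ε i s, s) = P k (u + ε k s', s')

section

variable {d q c n : ℕ}

theorem blkFun_apply (τ : Equiv.Perm (Fin d × Fin q)) (i : Fin d) (t : Fin q) (s : Fin c) :
    blkFun τ (i, finProdFinEquiv (t, s)) = ((τ (i, t)).1, finProdFinEquiv ((τ (i, t)).2, s)) := by
  simp only [blkFun, Equiv.symm_apply_apply]

theorem blkFun_injective (τ : Equiv.Perm (Fin d × Fin q)) :
    Function.Injective (blkFun (c := c) τ) := by
  rintro ⟨i, j⟩ ⟨i', j'⟩ h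
  obtain ⟨⟨t, s⟩, rfl⟩ := finProdFinEquiv.surjective j
  obtain ⟨⟨t', s'⟩, rfl⟩ := finProdFinEquiv.surjective j'
  rw [blkFun_apply, blkFun_apply, Prod.mk.injEq, EmbeddingLike.apply_eq_iff_eq,
    Prod.mk.injEq] at h
  obtain ⟨h1, h2, h3⟩ := h
  have h4 : τ (i, t) = τ (i', t') := Prod.ext h1 h2
  have h5 := τ.injective h4
  rw [Prod.mk.injEq] at h5
  rw [h5.1, h5.2, h3]

/-- A block permutation which keeps the slots together does not change `x`. -/
theorem good_blk [NeZero q] (x : (Fin d × Fin (q * c) → Fin n) → ℂ)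
    (hs : ∀ (π : Equiv.Perm (Fin d)) (w : Fin d × Fin (q * c) → Fin n),
      x (fun p => w (π p.1, p.2)) = x w)
    (hi : ∀ (ρ : Fin d → Equiv.Perm (Fin (q * c))) (w : Fin d × Fin (q * c) → Fin n),
      x (fun p => w (p.1, ρ p.1 p.2)) = x w)
    (τ : Equiv.Perm (Fin d × Fin q)) (hτ : ∀ i t t', (τ (i, t)).1 = (τ (i, t')).1)
    (w : Fin d × Fin (q * c) → Fin n) : x (fun p => w (blkFun τ p)) = x w := by
  classical
  have hsurj : Function.Surjective (fun i : Fin d => (τ (i, 0)).1) := by
    intro k
    obtain ⟨⟨i, t⟩, hit⟩ := τ.surjective (k, (0 : Fin q))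
    refine ⟨i, ?_⟩
    show (τ (i, 0)).1 = k
    rw [hτ i 0 t, hit]
  have hbij : Function.Bijective (fun i : Fin d => (τ (i, 0)).1) :=
    Finite.surjective_iff_bijective.mp hsurj
  set ρ : Equiv.Perm (Fin d) := Equiv.ofBijective _ hbij with hρ
  have hinj : ∀ i : Fin d, Function.Injective (fun t : Fin q => (τ (i, t)).2) := by
    intro i t t' h
    have h1 : τ (i, t) = τ (i, t') := Prod.ext (hτ i t t') h
    have h2 := τ.injective h1
    rw [Prod.mk.injEq] at h2
    exact h2.2
  set π : Fin d → Equiv.Perm (Fin q) := fun i =>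
    Equiv.ofBijective _ (Finite.injective_iff_bijective.mp (hinj i)) with hπ
  set r : Fin d → Equiv.Perm (Fin (q * c)) := fun i =>
    finProdFinEquiv.permCongr ((π i).prodCongr (Equiv.refl (Fin c))) with hr
  have h1 : (fun p => w (blkFun τ p)) =
      fun p => (fun p' : Fin d × Fin (q * c) => w (ρ p'.1, p'.2)) (p.1, r p.1 p.2) := by
    funext p
    obtain ⟨i, j⟩ := p
    obtain ⟨⟨t, s⟩, rfl⟩ := finProdFinEquiv.surjective j
    rw [blkFun_apply]
    have h2 : r i (finProdFinEquiv (t, s)) = finProdFinEquiv ((τ (i, t)).2, s) := by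
      simp [hr, hπ, Equiv.permCongr_apply]
    have h3 : ρ i = (τ (i, t)).1 := by
      show (τ (i, 0)).1 = (τ (i, t)).1
      exact hτ i 0 t
    show w _ = w (ρ i, r i (finProdFinEquiv (t, s)))
    rw [h2, h3]
  rw [h1, hi r (fun p' : Fin d × Fin (q * c) => w (ρ p'.1, p'.2)), hs ρ w]

/-- The move inside the slots. -/
def mv [NeZero q] (ε : Fin d → Fin c → Fin q) (i : Fin d) : Equiv.Perm (Fin (q * c)) :=
  finProdFinEquiv.permCongr
    { toFun := fun p => (p.1 + ε i p.2, p.2)
      invFun := fun p => (p.1 - ε i p.2, p.2)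
      left_inv := fun p => by simp
      right_inv := fun p => by simp }

theorem mv_apply [NeZero q] (ε : Fin d → Fin c → Fin q) (i : Fin d) (t : Fin q) (s : Fin c) :
    mv ε i (finProdFinEquiv (t, s)) = finProdFinEquiv (t + ε i s, s) := by
  simp [mv, Equiv.permCongr_apply]

/-- The move of all positions. -/
def mvA [NeZero q] (ε : Fin d → Fin c → Fin q) : Equiv.Perm (Fin d × Fin (q * c)) where
  toFun p := (p.1, mv ε p.1 p.2)
  invFun p := (p.1, (mv ε p.1).symm p.2)
  left_inv p := by simp
  right_inv p := by simp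

/-- Two places of one slot can be exchanged. -/
theorem swap_slot (x : (Fin d × Fin (q * c) → Fin n) → ℂ)
    (hi : ∀ (ρ : Fin d → Equiv.Perm (Fin (q * c))) (w : Fin d × Fin (q * c) → Fin n),
      x (fun p => w (p.1, ρ p.1 p.2)) = x w) (i : Fin d) (j j' : Fin (q * c))
    (w : Fin d × Fin (q * c) → Fin n) : x (w ∘ Equiv.swap (i, j) (i, j')) = x w := by
  classical
  rw [← hi (Function.update (fun _ => (1 : Equiv.Perm (Fin (q * c)))) i (Equiv.swap j j')) w]
  congr 1
  funext p
  obtain ⟨k, l⟩ := p
  simp only [Function.comp]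
  congr 1
  by_cases hk : k = i
  · subst hk
    rw [Function.update_self]
    by_cases h1 : l = j
    · subst h1; simp
    · by_cases h2 : l = j'
      · subst h2; simp
      · rw [Equiv.swap_apply_of_ne_of_ne h1 h2, Equiv.swap_apply_of_ne_of_ne]
        · simpa using h1
        · simpa using h2
  · rw [Function.update_of_ne hk, Equiv.swap_apply_of_ne_of_ne]
    · simp
    · simp [hk]
    · simp [hk]

/-- **SPLIT**: all column antisymmetrisations with `M` columns vanish. -/
theorem brs [NeZero q] {M : ℕ} (hsp : SplitProp d q c M)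
    (x : (Fin d × Fin (q * c) → Fin n) → ℂ)
    (hs : ∀ (π : Equiv.Perm (Fin d)) (w : Fin d × Fin (q * c) → Fin n),
      x (fun p => w (π p.1, p.2)) = x w)
    (hi : ∀ (ρ : Fin d → Equiv.Perm (Fin (q * c))) (w : Fin d × Fin (q * c) → Fin n),
      x (fun p => w (p.1, ρ p.1 p.2)) = x w)
    (hp : ∀ w : Fin d × Fin (q * c) → Fin n,
      ∑ τ : Equiv.Perm (Fin d × Fin q), x (fun p => w (blkFun τ p)) = 0)
    (D : ℕ) (e : Fin d × Fin (q * c) ≃ Fin D) (κ : Fin D → Fin M) (w : Fin D → Fin n) :
    ∑ σ : {σ : Equiv.Perm (Fin D) // κ ∘ σ = κ},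
        (Equiv.Perm.sign σ.1 : ℂ) * x (fun p => (w ∘ σ.1) (e p)) = 0 := by
  classical
  have hswap : ∀ (i : Fin d) (j j' : Fin (q * c)) (v : Fin D → Fin n),
      x (fun p => (v ∘ Equiv.swap (e (i, j)) (e (i, j'))) (e p)) = x (fun p => v (e p)) := by
    intro i j j' v
    have h1 := swap_slot x hi i j j' (fun p => v (e p))
    rw [← h1]
    congr 1
    funext p
    simp only [Function.comp]
    congr 1
    exact (congrFun (e.injective.swap_comp (i, j) (i, j')) p)
  by_cases hinj : ∀ i : Fin d, Function.Injective (fun ts : Fin q × Fin c =>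
      κ (e (i, finProdFinEquiv ts)))
  · obtain ⟨ε, hε⟩ := hsp _ hinj
    refine core (T := Equiv.Perm (Fin d × Fin q)) (fun v : Fin D → Fin n => x (fun p => v (e p)))
      (fun τ a => e (mvA ε (blkFun τ ((mvA ε).symm (e.symm a))))) ?_ ?_ κ ?_ 1 ?_ w
    · intro τ a a' h
      have h1 := (mvA ε).injective (e.injective h)
      have h2 := blkFun_injective τ h1
      exact e.symm.injective ((mvA ε).symm.injective h2)
    · intro v
      have h1 := hp (fun p => v (e (mvA ε p)))
      rw [← h1]
      apply Finset.sum_congr rfl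
      intro τ _
      have h2 := hi (fun i => (mv ε i).symm) (fun p => v (e (mvA ε (blkFun τ p))))
      rw [← h2]
      congr 1
      funext p
      simp only [Function.comp, Equiv.symm_apply_apply]
      rfl
    · intro τ
      by_cases hτ : ∀ i t t', (τ (i, t)).1 = (τ (i, t')).1
      · left
        intro v
        have h2 := hi (fun i => (mv ε i).symm) (fun p => v (e (mvA ε (blkFun τ p))))
        have h3 := good_blk x hs hi τ hτ (fun p => v (e (mvA ε p)))
        have h4 := hi (mv ε) (fun p => v (e p))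
        calc x (fun p => (v ∘ fun a => e (mvA ε (blkFun τ ((mvA ε).symm (e.symm a))))) (e p))
            = x (fun p => v (e (mvA ε (blkFun τ p)))) := by
              rw [← h2]
              congr 1
              funext p
              simp only [Function.comp, Equiv.symm_apply_apply]
              rfl
          _ = x (fun p => v (e (mvA ε p))) := h3
          _ = x (fun p => v (e p)) := h4
      · right
        push Not at hτ
        obtain ⟨i, t, t', hne⟩ := hτ
        obtain ⟨s, s', hss⟩ := hε _ _ hne (τ (i, t)).2 (τ (i, t')).2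
        refine ⟨e (mvA ε (i, finProdFinEquiv (t, s))), e (mvA ε (i, finProdFinEquiv (t', s'))),
          ?_, ?_, ?_⟩
        · intro h
          have h1 := (mvA ε).injective (e.injective h)
          rw [Prod.mk.injEq, EmbeddingLike.apply_eq_iff_eq, Prod.mk.injEq] at h1
          exact hne (by rw [h1.2.1])
        · show κ (e (mvA ε (blkFun τ ((mvA ε).symm (e.symm _))))) =
            κ (e (mvA ε (blkFun τ ((mvA ε).symm (e.symm _)))))
          rw [Equiv.symm_apply_apply, Equiv.symm_apply_apply, Equiv.symm_apply_apply,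
            Equiv.symm_apply_apply, blkFun_apply, blkFun_apply]
          show κ (e (_, mv ε _ _)) = κ (e (_, mv ε _ _))
          rw [mv_apply, mv_apply]
          exact hss
        · intro v
          exact hswap i (mv ε i (finProdFinEquiv (t, s))) (mv ε i (finProdFinEquiv (t', s'))) v
    · intro v
      have h1 : (fun a => e (mvA ε (blkFun (1 : Equiv.Perm (Fin d × Fin q))
          ((mvA ε).symm (e.symm a))))) = (id : Fin D → Fin D) := by
        funext a
        have h2 : ∀ p : Fin d × Fin (q * c), blkFun (1 : Equiv.Perm (Fin d × Fin q)) p = p := by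
          rintro ⟨i, j⟩
          obtain ⟨⟨t, s⟩, rfl⟩ := finProdFinEquiv.surjective j
          rw [blkFun_apply]
          simp
        rw [h2]
        simp
      show x (fun p => (v ∘ _) (e p)) = x (fun p => v (e p))
      rw [h1]
      rfl
  · push Not at hinj
    obtain ⟨i, hi'⟩ := hinj
    unfold Function.Injective at hi'
    push Not at hi'
    obtain ⟨p1, p2, h12, hne⟩ := hi'
    have h3 := term_zero (fun v : Fin D → Fin n => x (fun p => v (e p))) κ (id : Fin D → Fin D)
      Function.injective_id (e (i, finProdFinEquiv p1)) (e (i, finProdFinEquiv p2)) (by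
        intro h
        have h1 := e.injective h
        rw [Prod.mk.injEq, EmbeddingLike.apply_eq_iff_eq] at h1
        exact hne h1.2) h12 (fun v => hswap i _ _ v) w
    exact h3

end

theorem formsVanish {d q c M : ℕ} [NeZero q] (hsp : SplitProp d q c M) (n : ℕ)
    (lam : Fin n → ℕ) (hlam : ∀ i, lam i ≤ M) : FormsVanishG d q c n lam := by
  intro l hx h P hP
  have h1 : elOf l = 0 := by
    apply wf_inj
    set e : Fin d × Fin (q * c) ≃ Fin (d * (q * c)) := finProdFinEquiv with he
    have h2 := Vale.Agent.P181.FLAT.H487.words (M := M) (fun w : Fin (d * (q * c)) → Fin n =>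
      wf l (fun p => w (e p))) (fun P hP w => wf_symP e lam hlam l hx P hP w)
      (fun κ w => brs hsp (wf l) (fun π w => wf_slot l π w) (fun ρ w => wf_in l ρ w)
        (fun w => wf_pow l h w) _ e κ w)
    intro w
    have h3 := congrFun h2 (fun p => w (e.symm p))
    simpa using h3
  have h2 : ∀ (p : Fin d → Fin (q * c) → MvPolynomial (Fin n) ℂ)
      (ξ : Fin d → Fin (q * c) → Module.Dual ℂ (Fin n → ℂ)),
      (∀ i j, evL n (p i j) = fun v => ξ i j v) → formOf l (fun i => ∏ j, p i j) = 0 := by
    intro p ξ hp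
    rw [formOf_lin l p ξ hp, h1, map_zero]
  apply multilinear_zero_of_span (formOf l)
    (Set.range (fun c : Fin (q * c) → Fin n => ∏ j, (X (c j) : MvPolynomial (Fin n) ℂ)))
  · intro w hw
    choose v hv using hw
    have h3 : w = fun i => ∏ j, (X (v i j) : MvPolynomial (Fin n) ℂ) := by
      funext i
      exact (hv i).symm
    rw [h3]
    exact h2 (fun i j => X (v i j)) (fun i j => LinearMap.proj (v i j)) (fun i j => evL_X _)
  · intro i
    exact span_pow_eq _ _ (hP i)

/-- **SPLIT**, modulo the cutting. -/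
theorem split_of {d q c M : ℕ} [NeZero q] (hsp : SplitProp d q c M) (n : ℕ)
    (lam : Fin n → ℕ) (hlam : ∀ i, lam i ≤ M) :
    plethMult d (q * c) n lam ≤ plethMult (q * d) c n lam :=
  plethMultG_le_of d q c n lam (formsVanish hsp n lam hlam)

end Vale.Agent.P181.SPLIT.H412
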