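import Vale.Agent.P181.SPLIT.H412.Br

set_option autoImplicit false

/-!
# SPLIT, final form modulo the counting [S2] and the numbers [S4]
-/

namespace Vale.Agent.P181.SPLIT.H412

open Vale.Agent.P181 Vale.Agent.P181.H280 Vale.Agent.P181.H867

/-- [S2] -/
def SplitStmt : Prop :=
  ∀ {d q c M L : ℕ} [NeZero q], M + 2 * q * L ≤ 2 * (q * c) →
    d ^ 2 * q ^ 2 * (q ^ 2 - 1) ^ L < (q ^ 2) ^ L →
    ∀ P : Fin d → Fin q × Fin c → Fin M, (∀ i, Function.Injective (P i)) →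
    ∃ ε : Fin d → Fin c → Fin q, ∀ i k, i ≠ k → ∀ t u : Fin q,
      ∃ s s' : Fin c, P i (t + ε i s, s) = P k (u + ε k s', s')

/-- [S4] -/
def NumStmt : Prop :=
  ∀ {q a : ℕ}, 1 ≤ q → 1 ≤ a → ∀ L : ℕ, 2 * (q : ℝ) ^ 2 * Real.log (q * a) < L →
    a ^ 2 * q ^ 2 * (q ^ 2 - 1) ^ L < (q ^ 2) ^ L

/-- The cutting exists as soon as `M + 2 q L ≤ 2 q c`. -/
theorem splitProp_of (hS : SplitStmt) {d q c M L : ℕ} [NeZero q]
    (hM : M + 2 * q * L ≤ 2 * (q * c))
    (hnum : d ^ 2 * q ^ 2 * (q ^ 2 - 1) ^ L < (q ^ 2) ^ L) : SplitProp d q c M :=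
  fun P hP => hS hM hnum P hP

/-- If there are fewer colours than places of a slot there is nothing to cut. -/
theorem splitProp_small {d q c M : ℕ} [NeZero q] (hd : 1 ≤ d) (hM : M < q * c) :
    SplitProp d q c M := by
  intro P hP
  exfalso
  have h1 := Fintype.card_le_of_injective _ (hP ⟨0, hd⟩)
  simp only [Fintype.card_prod, Fintype.card_fin] at h1
  omega

/-- **SPLIT**, general form: `N` slots, forms of degree `c`, `q`-th powers. -/
theorem general_of (hS : SplitStmt) {N q c L : ℕ} (hN : 1 ≤ N) (hq : 1 ≤ q)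
    (hnum : N ^ 2 * q ^ 2 * (q ^ 2 - 1) ^ L < (q ^ 2) ^ L) (n : ℕ) (lam : Fin n → ℕ)
    (hlam : ∀ i, lam i + 2 * q * L ≤ 2 * (q * c)) (h0 : 1 ≤ c) :
    plethMult N (q * c) n lam ≤ plethMult (q * N) c n lam := by
  have : NeZero q := ⟨by omega⟩
  by_cases hn : ∀ i, lam i < q * c
  · -- all rows are short
    have h1 : SplitProp N q c (q * c - 1) := splitProp_small hN (by
      have : 0 < q * c := Nat.mul_pos hq h0
      omega)
    exact split_of h1 n lam (fun i => by have := hn i; omega)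
  · push Not at hn
    obtain ⟨i, hi⟩ := hn
    have h2 := hlam i
    have h1 : SplitProp N q c (2 * (q * c) - 2 * q * L) :=
      splitProp_of hS (L := L) (by omega) hnum
    exact split_of h1 n lam (fun j => by have := hlam j; omega)

/-- **SPLIT**: Foulkes' inequality for `b = q a` and `lam i ≤ 2 b - 4 q³ log b - 2 q`. -/
theorem main_of (hS : SplitStmt) (hNum : NumStmt) {q a : ℕ} (hq : 1 ≤ q) (ha : 1 ≤ a) (n : ℕ)
    (lam : Fin n → ℕ)
    (hlam : ∀ i, (lam i : ℝ) + 4 * (q : ℝ) ^ 3 * Real.log (q * a) + 2 * q ≤ 2 * (q * a)) :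
    plethMult a (q * a) n lam ≤ plethMult (q * a) a n lam := by
  have hlog : 0 ≤ 2 * (q : ℝ) ^ 2 * Real.log (q * a) := by
    have h1 : (1 : ℝ) ≤ q := by exact_mod_cast hq
    have h2 : (1 : ℝ) ≤ a := by exact_mod_cast ha
    have h3 : (1 : ℝ) ≤ (q : ℝ) * a := by nlinarith
    have h4 := Real.log_nonneg h3
    positivity
  set L : ℕ := ⌊2 * (q : ℝ) ^ 2 * Real.log (q * a)⌋₊ + 1 with hL
  have hL1 : 2 * (q : ℝ) ^ 2 * Real.log (q * a) < L := by
    rw [hL]; push_cast; exact Nat.lt_floor_add_one _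
  have hL2 : (L : ℝ) ≤ 2 * (q : ℝ) ^ 2 * Real.log (q * a) + 1 := by
    rw [hL]; push_cast
    have := Nat.floor_le hlog
    linarith
  refine general_of hS ha hq (hNum hq ha L hL1) n lam (fun i => ?_) ha
  have h1 := hlam i
  have h2 : ((lam i + 2 * q * L : ℕ) : ℝ) ≤ ((2 * (q * a) : ℕ) : ℝ) := by
    push_cast
    have h3 : (0 : ℝ) ≤ 2 * q := by positivity
    have h4 : 2 * (q : ℝ) * L ≤ 2 * q * (2 * (q : ℝ) ^ 2 * Real.log (q * a) + 1) :=
      mul_le_mul_of_nonneg_left hL2 h3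
    have h5 : 2 * (q : ℝ) * (2 * (q : ℝ) ^ 2 * Real.log (q * a) + 1) =
        4 * (q : ℝ) ^ 3 * Real.log (q * a) + 2 * q := by ring
    linarith
  exact_mod_cast h2

end Vale.Agent.P181.SPLIT.H412
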